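import Vale.Agent.P251EJ15.DT
import Vale.Agent.P251EJ.DefsS

/-!
# P251EJ, row NULL
-/

open OnePoint

namespace Vale.Agent.P251EJ15

theorem inc0_eq (M n : ℕ) :
    Vale.Agent.P251EJ.inc0 M n = inc0 (∞ : Vale.Agent.P251EJ.Sp n) M := by
  refine ContinuousMap.ext fun x => funext fun i => ?_
  refine Fin.cases ?_ (fun j => ?_) i
  · exact Function.update_self (0 : Fin (M + 1)) x fun _ => ∞
  · exact Function.update_of_ne (Fin.succ_ne_zero j) x fun _ => ∞

/-- **Row NULL.** -/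
theorem nullS : Vale.Agent.P251EJ.NullS := by
  intro k n hn hnk f hf
  obtain ⟨M, hM⟩ := dt_sph (m := k) (n := n) (by omega) hn (by omega) f hf
  refine ⟨M, fun Z _ q hq => ⟨q fun _ => ∞, ?_⟩⟩
  rw [inc0_eq]
  exact (hM Z q fun g v => hq g v).homotopic

end Vale.Agent.P251EJ15
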