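import Vale.Agent.P246.T.PS
import Mathlib.Topology.Homotopy.Basic

/-!
# Pairs of maps of a simplex which agree on the boundary

If a pair `(u, v)` of maps of a simplex which agree on the boundary can be deformed, through such
pairs, from `(u, const)` to a pair `(w, w)`, then `u` is null-homotopic relative to the boundary.
-/

open unitInterval Vale.Agent.P246.T Vale.Agent.P246.T.PS

namespace Vale.Agent.P251EJ15

variable {k : ℕ}

/-- the boundary of the simplex -/
def bdy (k : ℕ) : Set (Dl (k + 1)) := {x | ∃ i, x i = 0}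

/-- the width of the collar -/
noncomputable def lam (k : ℕ) : ℝ := 1 / ((k : ℝ) + 2)

theorem lam_pos (k : ℕ) : 0 < lam k := by
  unfold lam
  positivity

/-- the numerators of the expansion -/
noncomputable def num (q : I × Dl (k + 1)) (i : Fin (k + 1)) : ℝ := max (q.2 i - q.1 * lam k) 0

theorem continuous_num (i : Fin (k + 1)) : Continuous fun q : I × Dl (k + 1) => num q i :=
  (((continuous_coord i).comp continuous_snd).sub
    ((continuous_subtype_val.comp continuous_fst).mul continuous_const)).max continuous_const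

theorem sum_num_pos (q : I × Dl (k + 1)) : 0 < ∑ i, num q i := by
  have h1 : ∑ i, (q.2 i - q.1 * lam k) ≤ ∑ i, num q i :=
    Finset.sum_le_sum fun i _ => le_max_left _ _
  rw [Finset.sum_sub_distrib, stdSimplex.sum_eq_one, Finset.sum_const, Finset.card_univ,
    Fintype.card_fin, nsmul_eq_mul] at h1
  have h2 : ((k + 1 : ℕ) : ℝ) * lam k < 1 := by
    unfold lam
    rw [mul_one_div, div_lt_one (by positivity)]
    push_cast
    linarith
  have h3 : ((k + 1 : ℕ) : ℝ) * ((q.1 : ℝ) * lam k) ≤ ((k + 1 : ℕ) : ℝ) * lam k :=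
    mul_le_mul_of_nonneg_left (mul_le_of_le_one_left (lam_pos k).le q.1.2.2) (by positivity)
  linarith

/-- the expansion of the simplex which pushes a collar into the boundary -/
noncomputable def ex (k : ℕ) : C(I × Dl (k + 1), Dl (k + 1)) where
  toFun q := ⟨fun i => num q i / ∑ j, num q j,
    fun i => div_nonneg (le_max_right _ _) (sum_num_pos q).le, by
      rw [← Finset.sum_div, div_self (sum_num_pos q).ne']⟩
  continuous_toFun := by
    refine Continuous.subtype_mk (continuous_pi fun i => ?_) _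
    exact (continuous_num i).div (continuous_finsetSum _ fun j _ => continuous_num j)
      fun q => (sum_num_pos q).ne'

theorem ex_apply (q : I × Dl (k + 1)) (i : Fin (k + 1)) : ex k q i = num q i / ∑ j, num q j := rfl

theorem ex_zero (x : Dl (k + 1)) : ex k (0, x) = x := by
  have h : ∀ i, num ((0 : I), x) i = x i := by
    intro i
    change max (x i - (0 : ℝ) * lam k) 0 = x i
    rw [zero_mul, sub_zero, max_eq_left (stdSimplex.zero_le x i)]
  apply stdSimplex.ext
  funext i
  change ex k (0, x) i = x i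
  rw [ex_apply]
  simp only [h]
  rw [stdSimplex.sum_eq_one, div_one]

theorem ex_mem_of_le {t : I} {x : Dl (k + 1)} {i : Fin (k + 1)} (h : x i ≤ t * lam k) :
    ex k (t, x) ∈ bdy k :=
  ⟨i, by
    rw [ex_apply]
    have : num (t, x) i = 0 := max_eq_right (sub_nonpos.2 h)
    rw [this, zero_div]⟩

theorem ex_mem (t : I) {x : Dl (k + 1)} (hx : x ∈ bdy k) : ex k (t, x) ∈ bdy k := by
  obtain ⟨i, hi⟩ := hx
  exact ex_mem_of_le (i := i) (by rw [hi]; exact mul_nonneg t.2.1 (lam_pos k).le)

theorem ex_one_mem {x : Dl (k + 1)} (hx : mn x ≤ lam k) : ex k (1, x) ∈ bdy k := by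
  obtain ⟨i, hi⟩ := exists_mn x
  exact ex_mem_of_le (i := i) (by rw [← hi]; simpa using hx)

/-- the collar coordinate -/
noncomputable def nu (k : ℕ) : C(Dl (k + 1), I) where
  toFun x := ⟨min (mn x / lam k) 1,
    le_min (div_nonneg (mn_nonneg x) (lam_pos k).le) zero_le_one, min_le_right _ _⟩
  continuous_toFun := (((continuous_mn k).div_const _).min continuous_const).subtype_mk _

theorem nu_of_mem {x : Dl (k + 1)} (hx : x ∈ bdy k) : nu k x = 0 := by
  obtain ⟨i, hi⟩ := hx
  have h : mn x = 0 := le_antisymm (hi ▸ mn_le x i) (mn_nonneg x)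
  apply Subtype.ext
  change min (mn x / lam k) 1 = 0
  rw [h, zero_div, min_eq_left zero_le_one]

theorem nu_of_le {x : Dl (k + 1)} (hx : lam k ≤ mn x) : nu k x = 1 :=
  Subtype.ext (min_eq_right ((one_le_div (lam_pos k)).2 hx))

variable {Y : Type} [TopologicalSpace Y]

/-- pairs of maps which agree on the boundary -/
def Agree (g : C(Dl (k + 1), Y × Y)) : Prop := ∀ x ∈ bdy k, (g x).1 = (g x).2

/-- **Gluing of two homotopies along the boundary.** -/
theorem glue {g₀ g₁ : C(Dl (k + 1), Y × Y)} (H : g₀.HomotopicWith g₁ Agree) {y₀ : Y}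
    (h₀ : ∀ x, (g₀ x).2 = y₀) (h₁ : ∀ x, (g₁ x).1 = (g₁ x).2) :
    (ContinuousMap.fst.comp g₀).HomotopicRel (ContinuousMap.const _ y₀) (bdy k) := by
  obtain ⟨H⟩ := H
  have hH : ∀ t x, x ∈ bdy k → (H (t, x)).1 = (H (t, x)).2 := fun t x hx => H.prop t x hx
  have hb : ∀ x ∈ bdy k, (g₀ x).1 = y₀ := fun x hx => by
    have := hH 0 x hx
    rwa [H.apply_zero, h₀] at this
  have cE : Continuous fun x : Dl (k + 1) => ex k (1, x) := by fun_prop
  let u : C(Dl (k + 1), Y) := ⟨fun x => (g₀ (ex k (1, x))).1, by fun_prop⟩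
  let w : C(Dl (k + 1), Y) := ⟨fun x => (H (nu k x, ex k (1, x))).2, by fun_prop⟩
  have s1 : (ContinuousMap.fst.comp g₀).HomotopicRel u (bdy k) :=
    ⟨⟨⟨⟨fun q => (g₀ (ex k q)).1, by fun_prop⟩, fun x => by
        change (g₀ (ex k (0, x))).1 = (g₀ x).1
        rw [ex_zero], fun _ => rfl⟩, fun t x hx => by
      change (g₀ (ex k (t, x))).1 = (g₀ x).1
      rw [hb _ (ex_mem t hx), hb _ hx]⟩⟩
  have cm : Continuous fun q : I × Dl (k + 1) => q.1 * nu k q.2 :=
    Continuous.subtype_mk ((continuous_subtype_val.comp continuous_fst).mul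
      (continuous_subtype_val.comp ((nu k).continuous.comp continuous_snd))) _
  have cV : Continuous fun q : I × Dl (k + 1) => (H (q.1 * nu k q.2, ex k (1, q.2))).2 :=
    continuous_snd.comp (H.continuous.comp (cm.prodMk (cE.comp continuous_snd)))
  have cU : Continuous fun q : I × Dl (k + 1) => (H (q.1, ex k (1, q.2))).1 :=
    continuous_fst.comp (H.continuous.comp (continuous_fst.prodMk (cE.comp continuous_snd)))
  have s2 : u.HomotopicRel w (bdy k) := by
    refine ⟨⟨⟨⟨fun q => if mn q.2 ≤ lam k then (H (q.1 * nu k q.2, ex k (1, q.2))).2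
      else (H (q.1, ex k (1, q.2))).1, ?_⟩, fun x => ?_, fun x => ?_⟩, fun t x hx => ?_⟩⟩
    · refine Continuous.if_le cV cU ((continuous_mn k).comp continuous_snd) continuous_const ?_
      intro q hq
      rw [nu_of_le hq.ge, mul_one, hH _ _ (ex_one_mem hq.le)]
    · change (if mn x ≤ lam k then (H (0 * nu k x, ex k (1, x))).2
        else (H (0, ex k (1, x))).1) = (g₀ (ex k (1, x))).1
      split_ifs with h
      · rw [zero_mul, H.apply_zero, h₀, hb _ (ex_one_mem h)]
      · rw [H.apply_zero]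
    · change (if mn x ≤ lam k then (H (1 * nu k x, ex k (1, x))).2
        else (H (1, ex k (1, x))).1) = (H (nu k x, ex k (1, x))).2
      split_ifs with h
      · rw [one_mul]
      · rw [nu_of_le (not_le.1 h).le, H.apply_one, h₁]
    · change (if mn x ≤ lam k then (H (t * nu k x, ex k (1, x))).2
        else (H (t, ex k (1, x))).1) = (g₀ (ex k (1, x))).1
      obtain ⟨i, hi⟩ := id hx
      rw [if_pos ((mn_le x i).trans (hi.le.trans (lam_pos k).le)), nu_of_mem hx, mul_zero,
        H.apply_zero, h₀, hb _ (ex_mem 1 hx)]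
  have s3 : (ContinuousMap.const _ y₀).HomotopicRel w (bdy k) := by
    refine ⟨⟨⟨⟨fun q => (H (q.1 * nu k q.2, ex k (1, q.2))).2, cV⟩, fun x => ?_, fun x => ?_⟩,
      fun t x hx => ?_⟩⟩
    · change (H (0 * nu k x, ex k (1, x))).2 = y₀
      rw [zero_mul, H.apply_zero, h₀]
    · change (H (1 * nu k x, ex k (1, x))).2 = (H (nu k x, ex k (1, x))).2
      rw [one_mul]
    · change (H (t * nu k x, ex k (1, x))).2 = y₀
      rw [nu_of_mem hx, mul_zero, H.apply_zero, h₀]
  exact (s1.trans s2).trans s3.symm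

/-- **Descent** of a relative null-homotopy along a collapse of the boundary. -/
theorem descend {Z : Type} [TopologicalSpace Z] [T2Space Z] (q : C(Dl (k + 1), Z)) (z₀ : Z)
    (hs : Function.Surjective q) (hq : ∀ x y, q x = q y → x = y ∨ (x ∈ bdy k ∧ y ∈ bdy k))
    (hz : ∃ x ∈ bdy k, q x = z₀) (f : C(Z, Y)) {y₀ : Y}
    (H : (f.comp q).HomotopicRel (ContinuousMap.const _ y₀) (bdy k)) :
    f.HomotopicRel (ContinuousMap.const _ y₀) {z₀} := by
  obtain ⟨H⟩ := H
  let Q : C(I × Dl (k + 1), I × Z) := (ContinuousMap.id I).prodMap q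
  have hQs : Function.Surjective Q := fun p => by
    obtain ⟨x, hx⟩ := hs p.2
    exact ⟨(p.1, x), Prod.ext rfl hx⟩
  have hQ : Topology.IsQuotientMap Q :=
    Q.continuous.isClosedMap.isQuotientMap Q.continuous hQs
  have hf : Function.FactorsThrough H.toContinuousMap Q := by
    rintro ⟨t, x⟩ ⟨s, y⟩ h
    obtain rfl : t = s := congrArg Prod.fst h
    rcases hq x y (congrArg Prod.snd h) with rfl | ⟨hx, hy⟩
    · rfl
    · exact (H.eq_snd t hx).trans (H.eq_snd t hy).symm
  have hl : ∀ t x, hQ.lift H.toContinuousMap hf (t, q x) = H (t, x) := fun t x =>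
    DFunLike.congr_fun (hQ.lift_comp H.toContinuousMap hf) (t, x)
  refine ⟨⟨⟨hQ.lift H.toContinuousMap hf, fun z => ?_, fun z => ?_⟩, fun t z hz' => ?_⟩⟩
  · obtain ⟨x, rfl⟩ := hs z
    exact (hl 0 x).trans (H.apply_zero x)
  · obtain ⟨x, rfl⟩ := hs z
    exact (hl 1 x).trans (H.apply_one x)
  · obtain ⟨x, hx, rfl⟩ := hz
    obtain rfl : z = q x := hz'
    exact (hl t x).trans (H.eq_fst t hx)

end Vale.Agent.P251EJ15
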