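import Vale.Agent.P251EJ15.Split
import Vale.Agent.P251EJ15.Glue
import Vale.Agent.P263.T0.SphH
import Vale.Agent.P263.T0.Based

/-!
# A weak form of the Dold-Thom theorem

A based map `Sᵐ → X` into a path connected space with `H_m(X) = 0` becomes null-homotopic in some
symmetric power of `X`, hence after any symmetric map `X^(M+1) → Y`.
-/

open unitInterval OnePoint Vale.Agent.P246.T Vale.Agent.P263.T0 Vale.Agent.P263.T0.SphH

namespace Vale.Agent.P251EJ15

variable {X : Type} [TopologicalSpace X]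

/-- the inclusion of the first factor -/
def inc0 (x₀ : X) (M : ℕ) : C(X, Fin (M + 1) → X) where
  toFun x := Fin.cons x fun _ => x₀
  continuous_toFun := continuous_pi fun i => by
    refine Fin.cases ?_ (fun _ => ?_) i
    · exact continuous_id
    · exact continuous_const

theorem continuous_cons {W : Type} [TopologicalSpace W] {M : ℕ} {f : W → X} {g : W → Fin M → X}
    (hf : Continuous f) (hg : Continuous g) :
    Continuous fun w => (Fin.cons (f w) (g w) : Fin (M + 1) → X) :=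
  continuous_pi fun i => by
    refine Fin.cases ?_ (fun j => ?_) i
    · exact hf
    · exact (continuous_apply j).comp hg

omit [TopologicalSpace X] in
theorem cons_const (x₀ : X) (M : ℕ) :
    (Fin.cons x₀ fun _ => x₀ : Fin (M + 1) → X) = fun _ => x₀ := by
  funext i
  refine Fin.cases rfl (fun _ => rfl) i

/-- **Dold-Thom, weak form, on a simplex.** -/
theorem dt_simplex [PathConnectedSpace X] {m : ℕ} (τ : C(Dl (m + 2), X)) (x₀ : X)
    (hτ : ∀ x ∈ bdy (m + 1), τ x = x₀)
    (hX : ∀ c : Ch (m + 1) X, bd m c = 0 → ∃ b, bd (m + 1) b = c) :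
    ∃ M : ℕ, ∀ (Y : Type) [TopologicalSpace Y] (π : C(Fin (M + 1) → X, Y)),
      (∀ (g : Equiv.Perm (Fin (M + 1))) (v : Fin (M + 1) → X), π (fun i => v (g i)) = π v) →
      ((π.comp (inc0 x₀ M)).comp τ).HomotopicRel
        (ContinuousMap.const _ (π fun _ => x₀)) (bdy (m + 1)) := by
  obtain ⟨M, α, β, b, h1, h2, h3⟩ := split τ x₀ (fun x i hi => hτ x ⟨i, hi⟩) hX
  refine ⟨M, fun Y _ π hπ => ?_⟩
  have hms : ∀ v w : Fin (M + 1) → X, ms v = ms w → π v = π w := by
    intro v w h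
    obtain ⟨g, hg⟩ := exists_perm_of_ms h
    rw [← hπ g w]
    exact congrArg π (funext fun i => (hg i).symm)
  let B : C(Dl (m + 2), Fin M → X) := ⟨fun x a => b a x, by fun_prop⟩
  let p : Dl (m + 2) := stdSimplex.vertex 0
  have hB : (ContinuousMap.const (Dl (m + 2)) fun _ : Fin M => x₀).Homotopic B := by
    have : Nonempty (Dl (m + 2)) := ⟨p⟩
    refine (ContinuousMap.homotopic_const_iff.2 (PathConnectedSpace.joined _ (B p))).trans ?_
    refine ContinuousMap.Homotopic.symm ⟨⟨B.comp (slide p), fun x => ?_, fun x => ?_⟩⟩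
    · exact congrArg B (slide_zero p x)
    · exact congrArg B (slide_one p x)
  obtain ⟨K⟩ := hB
  let e : Dl (m + 3) := stdSimplex.vertex 0
  have he : ∀ j : Fin (m + 2), e j.succ = 0 := by
    intro j
    change (stdSimplex.vertex (0 : Fin (m + 3)) : Dl (m + 3)) j.succ = 0
    rw [stdSimplex.vertex_coe, Pi.single_apply, if_neg (Fin.succ_ne_zero j)]
  let G₁ : C(I × Dl (m + 2), Y × Y) :=
    ⟨fun q => (π (Fin.cons (τ q.2) (K q)), π (Fin.cons x₀ (K q))),
      (π.continuous.comp (continuous_cons (τ.continuous.comp continuous_snd) K.continuous)).prodMk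
        (π.continuous.comp (continuous_cons continuous_const K.continuous))⟩
  let φ : C(I × Dl (m + 2), Dl (m + 3)) :=
    (slide e).comp ((ContinuousMap.id I).prodMap (face (m + 2) 0))
  let G₂ : C(I × Dl (m + 2), Y × Y) :=
    ⟨fun q => (π fun a => α a (φ q), π fun a => β a (φ q)), by fun_prop⟩
  let g₀ : C(Dl (m + 2), Y × Y) := ⟨fun x => G₁ (0, x), by fun_prop⟩
  let g₁ : C(Dl (m + 2), Y × Y) := ⟨fun x => G₁ (1, x), by fun_prop⟩
  let g₂ : C(Dl (m + 2), Y × Y) := ⟨fun x => G₂ (1, x), by fun_prop⟩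
  have s1 : g₀.HomotopicWith g₁ Agree :=
    ⟨⟨⟨G₁, fun _ => rfl, fun _ => rfl⟩, fun t x hx => by
      change π (Fin.cons (τ x) (K (t, x))) = π (Fin.cons x₀ (K (t, x)))
      rw [hτ x hx]⟩⟩
  have s2 : g₁.HomotopicWith g₂ Agree := by
    refine ⟨⟨⟨G₂, fun x => ?_, fun _ => rfl⟩, fun t x hx => ?_⟩⟩
    · have h0 : φ (0, x) = face (m + 2) 0 x := slide_zero e _
      change (π fun a => α a (φ (0, x)), π fun a => β a (φ (0, x))) =
        (π (Fin.cons (τ x) (K (1, x))), π (Fin.cons x₀ (K (1, x))))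
      rw [h0, K.apply_one, hms _ _ (h2 x), hms _ _ (h3 x)]
      rfl
    · obtain ⟨i, hi⟩ := hx
      refine hms _ _ (h1 (φ (t, x)) i ?_)
      change slide e (t, face (m + 2) 0 x) i.succ = 0
      have h4 : face (m + 2) 0 x i.succ = x i := CV.face_succAbove (m + 2) 0 x i
      rw [slide_apply, he, h4, hi, mul_zero, mul_zero, add_zero]
  have s3 := glue (s1.trans s2) (y₀ := π fun _ => x₀) (fun x => by
    change π (Fin.cons x₀ (K (0, x))) = _
    rw [K.apply_zero]
    exact congrArg π (cons_const x₀ M)) (fun x => by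
    have h0 : φ (1, x) = e := slide_one e _
    change (π fun a => α a (φ (1, x))) = π fun a => β a (φ (1, x))
    rw [h0]
    exact hms _ _ (h1 e 0 (he 0)))
  have e0 : ContinuousMap.fst.comp g₀ = (π.comp (inc0 x₀ M)).comp τ := by
    refine ContinuousMap.ext fun x => ?_
    change π (Fin.cons (τ x) (K (0, x))) = π (Fin.cons (τ x) fun _ => x₀)
    rw [K.apply_zero]
    rfl
  rwa [e0] at s3

theorem sig_surjective (d : ℕ) : Function.Surjective (sig (d + 1)) := by
  intro z
  induction z using OnePoint.rec with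
  | infty =>
    refine ⟨stdSimplex.vertex 0, sig_of_mem ⟨1, ?_⟩⟩
    rw [stdSimplex.vertex_coe, Pi.single_apply, if_neg (by simp)]
  | coe u => exact ⟨sm u, sig_sm u⟩

theorem sig_fibre (d : ℕ) (x y : Dl (d + 1)) (h : sig d x = sig d y) :
    x = y ∨ (x ∈ bdy d ∧ y ∈ bdy d) := by
  by_cases hx : x ∈ bdD d <;> by_cases hy : y ∈ bdD d
  · exact Or.inr ⟨hx, hy⟩
  · rw [sig_of_mem hx, sig_of_notMem hy] at h
    exact absurd h (OnePoint.infty_ne_coe _)
  · rw [sig_of_mem hy, sig_of_notMem hx] at h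
    exact absurd h (OnePoint.coe_ne_infty _)
  · rw [sig_of_notMem hx, sig_of_notMem hy, OnePoint.coe_eq_coe] at h
    left
    rw [← sm_lg hx, ← sm_lg hy, h]

/-- **Dold-Thom, weak form.** -/
theorem dt [PathConnectedSpace X] {m : ℕ} (f : C(Sph (m + 1), X))
    (hX : ∀ c : Ch (m + 1) X, bd m c = 0 → ∃ b, bd (m + 1) b = c) :
    ∃ M : ℕ, ∀ (Y : Type) [TopologicalSpace Y] (π : C(Fin (M + 1) → X, Y)),
      (∀ (g : Equiv.Perm (Fin (M + 1))) (v : Fin (M + 1) → X), π (fun i => v (g i)) = π v) →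
      ((π.comp (inc0 (f ∞) M)).comp f).HomotopicRel
        (ContinuousMap.const _ (π fun _ => f ∞)) {∞} := by
  obtain ⟨M, hM⟩ := dt_simplex (f.comp (sig (m + 1))) (f ∞)
    (fun x hx => congrArg f (sig_of_mem hx)) hX
  refine ⟨M, fun Y _ π hπ => ?_⟩
  obtain ⟨x, hx⟩ := sig_surjective m ∞
  have hx' : x ∈ bdD (m + 1) := by
    by_contra h
    rw [sig_of_notMem h] at hx
    exact OnePoint.coe_ne_infty _ hx
  exact descend (sig (m + 1)) ∞ (sig_surjective m) (sig_fibre (m + 1)) ⟨x, hx', hx⟩ _ (hM Y π hπ)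

/-- **Dold-Thom, weak form, for spheres**: a based map `Sᵐ → Sⁿ` with `0 < m`, `0 < n`, `m ≠ n`
is null-homotopic in a symmetric power of `Sⁿ`. -/
theorem dt_sph {m n : ℕ} (hm : 0 < m) (hn : 0 < n) (hmn : m ≠ n) (f : C(Sph m, Sph n))
    (hf : f ∞ = ∞) :
    ∃ M : ℕ, ∀ (Y : Type) [TopologicalSpace Y] (π : C(Fin (M + 1) → Sph n, Y)),
      (∀ (g : Equiv.Perm (Fin (M + 1))) (v : Fin (M + 1) → Sph n), π (fun i => v (g i)) = π v) →
      ((π.comp (inc0 ∞ M)).comp f).HomotopicRel
        (ContinuousMap.const _ (π fun _ => ∞)) {∞} := by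
  obtain ⟨m, rfl⟩ := Nat.exists_eq_succ_of_ne_zero hm.ne'
  have := pathConnectedSpace_sph hn
  have h := dt f fun c hc => bounds_of_ne (hgen_sph n) hmn (c := c) hc
  rwa [hf] at h

end Vale.Agent.P251EJ15
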