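import Vale.Agent.P246.T.Stmt
import Mathlib.AlgebraicTopology.DoldKan.Projections
import Mathlib.Algebra.Category.ModuleCat.Basic

/-!
# Moore normalisation of singular chains

If a singular chain `z` all of whose faces of positive index vanish is a boundary, then it is the
`0`-th face of a chain all of whose other faces vanish (Dold-Kan projection of Mathlib).
-/

open CategoryTheory Simplicial AlgebraicTopology AlgebraicTopology.DoldKan Vale.Agent.P246.T

namespace Vale.Agent.P251EJ15

variable {X : Type} [TopologicalSpace X]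

/-- the affine map of simplices induced by a map of the vertices -/
noncomputable def smap {a b : ℕ} (f : Fin a → Fin b) : C(Dl a, Dl b) :=
  ⟨stdSimplex.map f, stdSimplex.continuous_map f⟩

/-- pull back of singular chains along a map of simplices -/
noncomputable def pre {a b : ℕ} (φ : C(Dl (a + 1), Dl (b + 1))) : Ch b X →ₗ[ℤ] Ch a X :=
  Finsupp.lmapDomain ℤ ℤ fun σ : C(Dl (b + 1), X) => σ.comp φ

theorem pre_single {a b : ℕ} (φ : C(Dl (a + 1), Dl (b + 1))) (σ : C(Dl (b + 1), X)) (r : ℤ) :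
    pre φ (Finsupp.single σ r) = Finsupp.single (σ.comp φ) r := by
  rw [pre, Finsupp.lmapDomain_apply, Finsupp.mapDomain_single]

/-- the `j`-th face operator on singular chains -/
noncomputable def fc (n : ℕ) (j : Fin (n + 2)) : Ch (n + 1) X →ₗ[ℤ] Ch n X :=
  pre (face (n + 1) j)

theorem fc_single (n : ℕ) (j : Fin (n + 2)) (σ : C(Dl (n + 2), X)) (r : ℤ) :
    fc n j (Finsupp.single σ r) = Finsupp.single (σ.comp (face (n + 1) j)) r :=
  pre_single _ _ _

theorem bd_eq_sum (n : ℕ) (c : Ch (n + 1) X) :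
    bd n c = ∑ j : Fin (n + 2), ((-1 : ℤ) ^ (j : ℕ)) • fc n j c := by
  induction c using Finsupp.induction_linear with
  | zero => simp
  | add a b ha hb => simp only [map_add, ha, hb, smul_add, Finset.sum_add_distrib]
  | single σ r =>
    rw [bd, Finsupp.linearCombination_single, Finset.smul_sum]
    refine Finset.sum_congr rfl fun j _ => ?_
    rw [fc_single, Finsupp.smul_single, Finsupp.smul_single, smul_eq_mul, smul_eq_mul, mul_comm]

theorem pre_id {a : ℕ} (f : Fin (a + 1) → Fin (a + 1)) (hf : f = id) :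
    pre (X := X) (smap f) = LinearMap.id := by
  subst hf
  refine Finsupp.lhom_ext fun σ r => ?_
  rw [pre_single, LinearMap.id_apply]
  congr 1
  ext x
  exact congrArg σ (stdSimplex.map_id_apply x)

theorem pre_comp {a b c : ℕ} (g : Fin (a + 1) → Fin (b + 1)) (f : Fin (b + 1) → Fin (c + 1))
    (k : Fin (a + 1) → Fin (c + 1)) (hk : k = f ∘ g) :
    pre (X := X) (smap k) = (pre (smap g)).comp (pre (smap f)) := by
  subst hk
  refine Finsupp.lhom_ext fun σ r => ?_
  rw [LinearMap.comp_apply, pre_single, pre_single, pre_single]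
  congr 1
  ext x
  exact congrArg σ (stdSimplex.map_comp_apply g f x).symm

variable (X) in
/-- the simplicial abelian group of singular chains -/
noncomputable def sch : SimplicialObject (ModuleCat.{0} ℤ) where
  obj n := ModuleCat.of ℤ (Ch n.unop.len X)
  map f := ModuleCat.ofHom (pre (smap f.unop.toOrderHom))
  map_id _ := ModuleCat.hom_ext (pre_id _ rfl)
  map_comp f g := ModuleCat.hom_ext (pre_comp g.unop.toOrderHom f.unop.toOrderHom _ rfl)

theorem sch_δ (n : ℕ) (j : Fin (n + 2)) :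
    (sch X).δ j = (ModuleCat.ofHom (fc n j) : ModuleCat.of ℤ (Ch (n + 1) X) ⟶ _) := rfl

theorem sch_d (n : ℕ) (c : Ch (n + 1) X) :
    ((AlternatingFaceMapComplex.obj (sch X)).d (n + 1) n).hom c = bd n c := by
  rw [AlternatingFaceMapComplex.obj_d_eq, bd_eq_sum, ModuleCat.hom_sum]
  refine (LinearMap.sum_apply _ _ _).trans (Finset.sum_congr rfl fun j _ => ?_)
  rfl

/-- **Moore normalisation.** -/
theorem moore {m : ℕ} (z : Ch (m + 1) X) (hz : ∀ j : Fin (m + 1), fc m j.succ z = 0)
    (c : Ch (m + 2) X) (hc : bd (m + 1) c = z) :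
    ∃ h : Ch (m + 2) X, (∀ j : Fin (m + 2), fc (m + 1) j.succ h = 0) ∧ fc (m + 1) 0 h = z := by
  let Pq : AlternatingFaceMapComplex.obj (sch X) ⟶ AlternatingFaceMapComplex.obj (sch X) :=
    P (m + 2)
  let h : Ch (m + 2) X := (Pq.f (m + 2)).hom c
  have h1 : ∀ j : Fin (m + 2), fc (m + 1) j.succ h = 0 := by
    intro j
    have e := HigherFacesVanish.of_P (X := sch X) (m + 2) (m + 1) j (by omega)
    exact congrArg (fun g : (sch X) _⦋m + 2⦌ ⟶ (sch X) _⦋m + 1⦌ => g.hom c) e
  let φ : ModuleCat.of ℤ ℤ ⟶ (sch X) _⦋m + 1⦌ :=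
    ModuleCat.ofHom (LinearMap.toSpanSingleton ℤ (Ch (m + 1) X) z)
  have hφ : HigherFacesVanish (X := sch X) (m + 2) φ := by
    intro j _
    refine ModuleCat.hom_ext (LinearMap.ext_ring ?_)
    change fc m j.succ ((1 : ℤ) • z) = 0
    rw [one_smul, hz]
  have h2 : (Pq.f (m + 1)).hom z = z := by
    have e := congrArg (fun g : ModuleCat.of ℤ ℤ ⟶ (sch X) _⦋m + 1⦌ => g.hom (1 : ℤ))
      hφ.comp_P_eq_self
    change (Pq.f (m + 1)).hom ((1 : ℤ) • z) = (1 : ℤ) • z at e
    rwa [one_smul] at e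
  have h3 : bd (m + 1) h = z := by
    have e := congrArg (fun g : (sch X) _⦋m + 2⦌ ⟶ (sch X) _⦋m + 1⦌ => g.hom c)
      (Pq.comm (m + 2) (m + 1))
    change ((AlternatingFaceMapComplex.obj (sch X)).d (m + 2) (m + 1)).hom h =
      (Pq.f (m + 1)).hom (((AlternatingFaceMapComplex.obj (sch X)).d (m + 2) (m + 1)).hom c) at e
    rw [sch_d, sch_d, hc, h2] at e
    exact e
  refine ⟨h, h1, ?_⟩
  rw [bd_eq_sum, Fin.sum_univ_succ, Finset.sum_eq_zero fun j _ => by rw [h1, smul_zero]] at h3
  simpa using h3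

end Vale.Agent.P251EJ15
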