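import Vale.Agent.P251EJ15.Moore
import Vale.Agent.P246.T.CV

/-!
# A bounding chain as two tuples of singular simplices

If the simplex `σ` sends the boundary to `x₀` and the cycle `[σ] - [x₀]` bounds, there are two
tuples `α`, `β` of simplices of one dimension more which agree up to order on the horn, and whose
`0`-th faces are, up to order, `(σ, b)` and `(x₀, b)`.
-/

open Vale.Agent.P246.T

namespace Vale.Agent.P251EJ15

section Ms

variable {A B : Type}

/-- the multiset of the values of a tuple -/
def ms {N : ℕ} (v : Fin N → A) : Multiset A := Multiset.map v Finset.univ.val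

theorem ms_map {N : ℕ} (v : Fin N → A) (f : A → B) : (ms v).map f = ms fun i => f (v i) := by
  rw [ms, Multiset.map_map]
  rfl

theorem ms_cons {N : ℕ} (x : A) (v : Fin N → A) :
    ms (Fin.cons x v : Fin (N + 1) → A) = x ::ₘ ms v := by
  rw [ms, ms, Fin.univ_val_map, Fin.univ_val_map, List.ofFn_succ, Multiset.cons_coe]
  rfl

theorem exists_ms (l : Multiset A) {N : ℕ} (h : l.card = N) : ∃ v : Fin N → A, ms v = l := by
  subst h
  induction l using Quotient.inductionOn with
  | h L =>
    refine ⟨L.get, ?_⟩
    exact (Fin.univ_val_map L.get).trans (congrArg _ (List.ofFn_get L))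

/-- tuples with the same multiset of values differ by a permutation -/
theorem exists_perm_of_ms {N : ℕ} {v w : Fin N → A} (h : ms v = ms w) :
    ∃ g : Equiv.Perm (Fin N), ∀ i, w (g i) = v i := by
  classical
  have hc : ∀ y : A, Fintype.card {i // v i = y} = Fintype.card {i // w i = y} := by
    intro y
    have e := congrArg (Multiset.count y) h
    rw [ms, ms, Multiset.count_map, Multiset.count_map] at e
    rw [Fintype.card_subtype, Fintype.card_subtype]
    simp only [eq_comm (a := y)] at e
    exact e
  exact ⟨Equiv.ofFiberEquiv fun y => Fintype.equivOfCardEq (hc y),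
    fun i => Equiv.ofFiberEquiv_map _ i⟩

/-- the chain of a multiset -/
noncomputable def chn (l : Multiset A) : A →₀ ℤ := (l.map fun a => Finsupp.single a (1 : ℤ)).sum

theorem chn_zero : chn (0 : Multiset A) = 0 := rfl

theorem chn_add (l l' : Multiset A) : chn (l + l') = chn l + chn l' := by
  rw [chn, Multiset.map_add, Multiset.sum_add]
  rfl

theorem chn_cons (a : A) (l : Multiset A) : chn (a ::ₘ l) = Finsupp.single a 1 + chn l := by
  rw [chn, Multiset.map_cons, Multiset.sum_cons]
  rfl

theorem chn_apply [DecidableEq A] (l : Multiset A) (a : A) : chn l a = l.count a := by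
  induction l using Multiset.induction_on with
  | empty => rfl
  | cons b l ih =>
    rw [chn_cons, Finsupp.add_apply, ih, Multiset.count_cons, Finsupp.single_apply]
    by_cases h : b = a
    · rw [if_pos h, if_pos h.symm]; push_cast; ring
    · rw [if_neg h, if_neg (Ne.symm h)]; push_cast; ring

theorem chn_inj {l l' : Multiset A} (h : chn l = chn l') : l = l' := by
  classical
  refine Multiset.ext.2 fun a => ?_
  have e := DFunLike.congr_fun h a
  rw [chn_apply, chn_apply] at e
  exact_mod_cast e

theorem mapDomain_chn (f : A → B) (l : Multiset A) :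
    Finsupp.mapDomain f (chn l) = chn (l.map f) := by
  induction l using Multiset.induction_on with
  | empty => exact Finsupp.mapDomain_zero
  | cons b l ih =>
    rw [chn_cons, Finsupp.mapDomain_add, ih, Multiset.map_cons, chn_cons, Finsupp.mapDomain_single]

theorem chn_replicate (n : ℕ) (a : A) :
    chn (Multiset.replicate n a) = Finsupp.single a (n : ℤ) := by
  induction n with
  | zero => simp [chn_zero]
  | succ n ih =>
    rw [Multiset.replicate_succ, chn_cons, ih, ← Finsupp.single_add]
    congr 1
    push_cast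
    ring

theorem exists_chn (h : A →₀ ℤ) : ∃ l l' : Multiset A, h = chn l - chn l' := by
  induction h using Finsupp.induction_linear with
  | zero => exact ⟨0, 0, by rw [sub_self]⟩
  | add a b ha hb =>
    obtain ⟨l, l', rfl⟩ := ha
    obtain ⟨k, k', rfl⟩ := hb
    exact ⟨l + k, l' + k', by rw [chn_add, chn_add]; abel⟩
  | single a r =>
    obtain ⟨n, rfl | rfl⟩ := Int.eq_nat_or_neg r
    · exact ⟨Multiset.replicate n a, 0, by rw [chn_replicate, chn_zero, sub_zero]⟩
    · exact ⟨0, Multiset.replicate n a, by
        rw [chn_replicate, chn_zero, zero_sub, Finsupp.single_neg]⟩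

end Ms

variable {X : Type} [TopologicalSpace X]

theorem fc_chn (n : ℕ) (j : Fin (n + 2)) (l : Multiset C(Dl (n + 2), X)) :
    fc n j (chn l) = chn (l.map fun σ => σ.comp (face (n + 1) j)) :=
  mapDomain_chn _ l

/-- **The two tuples.** -/
theorem split {m : ℕ} (σ : C(Dl (m + 2), X)) (x₀ : X) (hσ : ∀ x i, x i = 0 → σ x = x₀)
    (hX : ∀ c : Ch (m + 1) X, bd m c = 0 → ∃ b, bd (m + 1) b = c) :
    ∃ (M : ℕ) (α β : Fin (M + 1) → C(Dl (m + 3), X)) (b : Fin M → C(Dl (m + 2), X)),
      (∀ (y : Dl (m + 3)) (j : Fin (m + 2)), y j.succ = 0 →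
        ms (fun a => α a y) = ms fun a => β a y) ∧
      (∀ x, ms (fun a => α a (face (m + 2) 0 x)) =
        ms (Fin.cons (σ x) fun a => b a x : Fin (M + 1) → X)) ∧
      (∀ x, ms (fun a => β a (face (m + 2) 0 x)) =
        ms (Fin.cons x₀ fun a => b a x : Fin (M + 1) → X)) := by
  let z : Ch (m + 1) X :=
    Finsupp.single σ 1 - Finsupp.single (ContinuousMap.const (Dl (m + 2)) x₀) 1
  have hz : ∀ j : Fin (m + 2), fc m j z = 0 := by
    intro j
    have e : σ.comp (face (m + 1) j) = (ContinuousMap.const (Dl (m + 2)) x₀).comp (face (m + 1) j) :=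
      ContinuousMap.ext fun x => hσ _ j (CV.face_self _ _ _)
    rw [map_sub, fc_single, fc_single, e, sub_self]
  obtain ⟨c, hc⟩ := hX z (by
    rw [bd_eq_sum]
    exact Finset.sum_eq_zero fun j _ => by rw [hz, smul_zero])
  obtain ⟨h, h1, h0⟩ := moore z (fun j => hz _) c hc
  obtain ⟨l, l', rfl⟩ := exists_chn h
  have e1 : ∀ j : Fin (m + 2), (l.map fun τ => τ.comp (face (m + 2) j.succ)) =
      l'.map fun τ => τ.comp (face (m + 2) j.succ) := by
    intro j
    have e := h1 j
    rw [map_sub, fc_chn, fc_chn, sub_eq_zero] at e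
    exact chn_inj e
  have e0 : ContinuousMap.const (Dl (m + 2)) x₀ ::ₘ (l.map fun τ => τ.comp (face (m + 2) 0)) =
      σ ::ₘ l'.map fun τ => τ.comp (face (m + 2) 0) := by
    apply chn_inj
    rw [map_sub, fc_chn, fc_chn, sub_eq_sub_iff_add_eq_add] at h0
    rw [chn_cons, chn_cons]
    exact (add_comm _ _).trans h0
  have hcard : l.card = l'.card := by
    have e := congrArg Multiset.card (e1 0)
    rwa [Multiset.card_map, Multiset.card_map] at e
  obtain ⟨a, ha⟩ := exists_ms l hcard
  obtain ⟨a', ha'⟩ := exists_ms l' rfl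
  let k : C(Dl (m + 3), X) := ContinuousMap.const _ x₀
  have hc : ∀ (v : Fin l'.card → C(Dl (m + 3), X)) (y : Dl (m + 3)),
      ms (fun i => (Fin.cons k v : Fin (l'.card + 1) → C(Dl (m + 3), X)) i y) =
        x₀ ::ₘ (ms v).map fun τ => τ y := by
    intro v y
    rw [← ms_map (Fin.cons k v : Fin (l'.card + 1) → C(Dl (m + 3), X)) fun τ => τ y, ms_cons,
      Multiset.map_cons]
    rfl
  refine ⟨l'.card, Fin.cons k a, Fin.cons k a', fun i => (a' i).comp (face (m + 2) 0), ?_, ?_, ?_⟩
  · intro y j hy
    obtain ⟨x, rfl⟩ := CV.exists_face j.succ hy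
    have e := congrArg (Multiset.map fun τ : C(Dl (m + 2), X) => τ x) (e1 j)
    rw [Multiset.map_map, Multiset.map_map] at e
    rw [hc, hc, ha, ha']
    exact congrArg _ e
  · intro x
    have e := congrArg (Multiset.map fun τ : C(Dl (m + 2), X) => τ x) e0
    rw [Multiset.map_cons, Multiset.map_cons, Multiset.map_map, Multiset.map_map] at e
    rw [hc, ms_cons, ha]
    refine e.trans (congrArg _ ?_)
    conv_lhs => rw [← ha']
    exact ms_map _ _
  · intro x
    rw [hc, ms_cons]
    exact congrArg _ (ms_map _ _)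

end Vale.Agent.P251EJ15
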